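import Vale.Agent.P141.H970.SkelG2
import Vale.Agent.P141.H8.BirthFD

/-!
# P141, line (A), births: the leaf from the energy of one generation

* `price_gen` : the two roots of the births in the form of `H970.SkG.PartXg`;
* `EvSt` : the energy of one generation at the affected nodes;
* `leafB_of` : `EvSt → LeafB`.
-/

namespace Vale.Agent.P141.H88

open Finset Matrix
open Vale.Agent.P141.PL (Pt iv hs ix mem_iv mem_cb ix_ix cb cx)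
open Vale.Agent.P141.PL.H315 (Tri)
open Vale.Agent.P141.H48 (US ES BSl sst)
open Vale.Agent.P141.H677 (rt)
open Vale.Agent.P141.H677.Sk
open Vale.Agent.P141.H460 (fAR Win)
open Vale.Agent.P141.H305 (ClsM kapM)
open Vale.Agent.P141.H970.SkG
open Vale.Agent.P141.H8B (AfB qB_le)

noncomputable section

open scoped Classical

/-- **The two roots of one generation**, `T = lg`, `E = eg`. -/
theorem price_gen {t s r k3 d los ez T E EV C1 CD P : ℝ} {K : ℕ} (ht : 0 < t) (ht1 : t ≤ 1)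
    (hs : 0 < s) (hr : 1 ≤ r) (hez : 0 ≤ ez) (hT : 1 ≤ T) (hE : 0 < E) (hC1 : 0 ≤ C1)
    (hCD : 0 ≤ CD) (hP : 0 ≤ P) (hl : k3 + d ≤ los) (hl' : k3 ≤ los)
    (hEV : EV ≤ C1 * (ez * s * 8 ^ K * t ^ (-d) * (T * E))) :
    126 * (√EV * √(4 * (t ^ (1 - k3) * s ^ (1 / 4 : ℝ) * r ^ k3) ^ 2 * (CD * (t ^ (-d) * s)) *
      (P * 8 ^ K))) ≤
      (126 * √(4 * C1 * CD * P)) * (t ^ (1 - los) * s ^ (5 / 4 : ℝ) * √ez * 8 ^ K) * r ^ los *
        (T ^ 1 * E ^ (1 / 2 : ℝ)) := by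
  have hr0 : 0 < r := by linarith
  have h8 : (0 : ℝ) < 8 ^ K := by positivity
  set θ := t ^ (1 - k3) * s ^ (1 / 4 : ℝ) * r ^ k3 with hθ
  have hθ0 : 0 < θ := by positivity
  have htd : 0 < t ^ (-d) := Real.rpow_pos_of_pos ht _
  have hlos : 0 < t ^ (1 - los) := Real.rpow_pos_of_pos ht _
  have h1 : √EV * √(4 * θ ^ 2 * (CD * (t ^ (-d) * s)) * (P * 8 ^ K)) ≤
      √(4 * C1 * CD * P) * (√ez * s * 8 ^ K * t ^ (-d) * θ * (√T * √E)) := by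
    have h2 : √EV ≤ √(C1 * (ez * s * 8 ^ K * t ^ (-d) * (T * E))) := Real.sqrt_le_sqrt hEV
    refine (mul_le_mul_of_nonneg_right h2 (Real.sqrt_nonneg _)).trans (le_of_eq ?_)
    rw [← Real.sqrt_mul (by positivity)]
    have h3 : C1 * (ez * s * 8 ^ K * t ^ (-d) * (T * E)) *
        (4 * θ ^ 2 * (CD * (t ^ (-d) * s)) * (P * 8 ^ K)) =
        (4 * C1 * CD * P) * (ez * (T * E) * (s * 8 ^ K * t ^ (-d) * θ) ^ 2) := by ring
    have hW : 0 ≤ 4 * C1 * CD * P := by positivity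
    generalize 4 * C1 * CD * P = W at h3 hW ⊢
    have hTE : 0 ≤ ez * (T * E) := by positivity
    rw [h3, Real.sqrt_mul hW, Real.sqrt_mul hTE, Real.sqrt_mul hez,
      Real.sqrt_mul (by linarith : 0 ≤ T), Real.sqrt_sq (by positivity)]
    ring
  have h4 : √T ≤ T ^ 1 := by
    rw [pow_one]
    exact Real.sqrt_le_iff.2 ⟨by linarith, by nlinarith⟩
  have h5 : s * s ^ (1 / 4 : ℝ) = s ^ (5 / 4 : ℝ) := by
    rw [show (5 / 4 : ℝ) = 1 + 1 / 4 by norm_num, Real.rpow_add hs, Real.rpow_one]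
  have h6 : t ^ (-d) * t ^ (1 - k3) ≤ t ^ (1 - los) := by
    rw [← Real.rpow_add ht]
    exact Real.rpow_le_rpow_of_exponent_ge ht ht1 (by linarith)
  have h7 : r ^ k3 ≤ r ^ los := Real.rpow_le_rpow_of_exponent_le hr hl'
  calc 126 * (√EV * √(4 * θ ^ 2 * (CD * (t ^ (-d) * s)) * (P * 8 ^ K))) ≤
      126 * (√(4 * C1 * CD * P) * (√ez * s * 8 ^ K * t ^ (-d) * θ * (√T * √E))) := by
        gcongr
    _ = (126 * √(4 * C1 * CD * P)) * ((t ^ (-d) * t ^ (1 - k3)) * (s * s ^ (1 / 4 : ℝ)) * √ez *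
        8 ^ K) * r ^ k3 * (√T * √E) := by rw [hθ]; ring
    _ ≤ (126 * √(4 * C1 * CD * P)) * (t ^ (1 - los) * s ^ (5 / 4 : ℝ) * √ez * 8 ^ K) * r ^ los *
        (T ^ 1 * E ^ (1 / 2 : ℝ)) := by
        rw [h5, ← Real.sqrt_eq_rpow]
        gcongr

/-- **The energy of one generation at the affected nodes**, constant of `cP` and `L`. -/
def EvSt : Prop :=
  ∀ cP L : ℝ, 0 ≤ cP → 1 ≤ L → ∃ C1 : ℝ, 0 ≤ C1 ∧
  ∀ (ι : Type) [Fintype ι] [DecidableEq ι] (q : H401.Num), q.cP = cP → q.L = L → 0 < q.t →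
    q.t ≤ 1 → 0 < q.e0 → q.e0 ≤ 1 → 0 ≤ q.c → q.c ≤ 1 → 0 < q.d →
  ∀ (n : ℕ) (ez : ℝ), 0 ≤ ez → ∀ (F1 F2 F3 : ℕ → Pt → ℝ) (o : ℤ), o = 1 ∨ o = -1 →
  ∀ K ≤ n, ∀ (x : Pt) (s r : ℝ) (U : Tri) (g : ℤ → ℤ → ℝ) (u v : ℤ → ℤ → ι → ℝ), 0 < s → 1 ≤ r →
    ClsM K x s r (q.L * q.t ^ (2 - q.c) * √s) (kapM q.L q.t q.a s r) U g u v →
  ∀ (A : FamA) (b C : FamV ι) (Q1 Q2 Q3 : ℕ → Pt → Prop) (v' : ℤ → ℤ → ι → ℝ),
    FDs q n ez F1 F2 F3 K x s r U g u v A b C Q1 Q2 Q3 v' →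
  ∀ sg : ℕ → Pt → ℝ, (∀ k m, |sg k m| ≤ 1) → ∀ γ ≤ K,
  ∀ t ∈ rt (cx K x), ∀ o' ∈ Win, ∀ b' ∈ range 2,
    ∑ k ∈ range (K + 1), ∑ y ∈ cb K (t, (cx K x).1, (cx K x).2.2),
      (if fAR o' K (cx K x).2.1 (AfB q U K Q1 Q2 Q3 o') k (cx k y) then
        (slg (q.al U K) o K (cx K x) sg (q.lam s r) u (kg q.t r 1) γ y.1 k y.2.2 y.2.1 *ᵥ
            C y.1 (k + b') y.2.2 y.2.1) ⬝ᵥ
          (slg (q.al U K) o K (cx K x) sg (q.lam s r) u (kg q.t r 1) γ y.1 k y.2.2 y.2.1 *ᵥ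
            C y.1 (k + b') y.2.2 y.2.1) else 0) ≤
      C1 * (ez * s * 8 ^ K * q.t ^ (-q.d) * (lg q.t r γ * eg q.c q.e0 1 q.t r γ))

/-- **The births from the energy of one generation.** -/
theorem leafB_of (H : EvSt) : LeafB := by
  refine partF_fB_gen (q := 1) (θ := 1 / 2) (α := 1) (by norm_num) le_rfl ?_
  intro a _ha _ha1
  refine ⟨1, one_pos, fun e0 he0 he01 => ⟨1, one_pos, fun k8 _ _ => ⟨e0 / 16, by positivity,
    fun k3 hk3 hk3s => ⟨k3 + e0 / 16, 1, e0 / 16, by linarith, one_pos, by positivity,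
    fun c hc hc1 d hd hdd Kt e cP L _hKt _he hcP hL CD hCD => ?_⟩⟩⟩⟩
  obtain ⟨C1, hC1, H⟩ := H cP L hcP hL
  refine ⟨126 * √(4 * C1 * CD * (43 * (cP + 2))), by positivity, ?_⟩
  intro t ht ht1 n ez F1 F2 F3 _h1 _h3 h2 o ho K hKn x ι _ _ s r U g u v hs hr hcls γ hγ A b C hD
    sg hsg
  obtain ⟨Q1, Q2, Q3, v', hF⟩ := hD
  have hez : 0 ≤ ez := h2.1
  have hEV := H ι ⟨a, e0, k8, k3, c, d, Kt, e, cP, L, CD, t⟩ rfl rfl ht ht1 he0 he01 hc hc1 hd n ez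
    hez F1 F2 F3 o ho K hKn x s r U g u v hs hr hcls A b C Q1 Q2 Q3 v' hF sg hsg γ hγ
  have hCD0 : 0 ≤ CD * (t ^ (-d) * s) := by
    have := Real.rpow_nonneg ht.le (-d)
    positivity
  have h3 := qB_le hF hKn hCD0 _ hEV
  refine h3.trans ?_
  exact price_gen (t := t) (s := s) (r := r) (k3 := k3) (d := d) (los := k3 + e0 / 16) (ez := ez)
    (T := lg t r γ) (E := eg c e0 1 t r γ) (C1 := C1) (CD := CD) (P := 43 * (cP + 2)) ht ht1 hs hr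
    hez (lg_ge ht ht1 hr γ) (eg_pos ht hr c e0 1 γ) hC1 (by linarith) (by positivity)
    (by linarith) (by linarith) le_rfl

end

end Vale.Agent.P141.H88
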